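import Vale.Agent.P233G30.Rows

/-! P233G, row `HS`: the Hessian is represented by a square integrable field of tensors. -/

set_option linter.all false

open MeasureTheory Filter Topology Set
open scoped ENNReal NNReal InnerProductSpace

universe u

namespace Vale.Agent.P233G35

open Vale.Agent.P233 Vale.Agent.P233G

theorem swap_le {ι : Type*} (s : Finset ι) (t : ι → ℝ) (u v : ι → E1) :
    ∑ p ∈ s, ∑ q ∈ s, t p * t q *
      (⟪u q, u p⟫_ℝ * ⟪v q, v p⟫_ℝ + ⟪u q, v p⟫_ℝ * ⟪v q, u p⟫_ℝ)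
      ≤ 2 * ‖∑ p ∈ s, t p • tm (u p) (v p)‖ ^ 2 := by
  set V := ∑ p ∈ s, t p • tm (u p) (v p) with hV
  set V' := ∑ p ∈ s, t p • tm (v p) (u p) with hV'
  have h1 : ⟪V, V⟫_ℝ = ∑ p ∈ s, ∑ q ∈ s, t p * t q * (⟪u q, u p⟫_ℝ * ⟪v q, v p⟫_ℝ) := by
    rw [hV, inner_sum]
    refine Finset.sum_congr rfl fun p _ => ?_
    rw [sum_inner]
    refine Finset.sum_congr rfl fun q _ => ?_
    rw [real_inner_smul_left, real_inner_smul_right, inner_tm]; ring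
  have h2 : ⟪V', V'⟫_ℝ = ∑ p ∈ s, ∑ q ∈ s, t p * t q * (⟪u q, u p⟫_ℝ * ⟪v q, v p⟫_ℝ) := by
    rw [hV', inner_sum]
    refine Finset.sum_congr rfl fun p _ => ?_
    rw [sum_inner]
    refine Finset.sum_congr rfl fun q _ => ?_
    rw [real_inner_smul_left, real_inner_smul_right, inner_tm]; ring
  have h3 : ⟪V, V'⟫_ℝ = ∑ p ∈ s, ∑ q ∈ s, t p * t q * (⟪u q, v p⟫_ℝ * ⟪v q, u p⟫_ℝ) := by
    rw [hV, hV', inner_sum]
    refine Finset.sum_congr rfl fun p _ => ?_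
    rw [sum_inner]
    refine Finset.sum_congr rfl fun q _ => ?_
    rw [real_inner_smul_left, real_inner_smul_right, inner_tm]; ring
  have h4 : ∑ p ∈ s, ∑ q ∈ s, t p * t q *
      (⟪u q, u p⟫_ℝ * ⟪v q, v p⟫_ℝ + ⟪u q, v p⟫_ℝ * ⟪v q, u p⟫_ℝ) = ⟪V, V⟫_ℝ + ⟪V, V'⟫_ℝ := by
    rw [h1, h3, ← Finset.sum_add_distrib]
    refine Finset.sum_congr rfl fun p _ => ?_
    rw [← Finset.sum_add_distrib]
    refine Finset.sum_congr rfl fun q _ => ?_
    ring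
  have h5 : 0 ≤ ⟪V - V', V - V'⟫_ℝ := real_inner_self_nonneg
  rw [inner_sub_left, inner_sub_right, inner_sub_right, real_inner_comm V V', h2, ← h1] at h5
  rw [h4, ← real_inner_self_eq_norm_sq]
  linarith

variable {M : Type*} [MeasurableSpace M] {m : Measure M} {C : Calc m}
  {Gr : (M →ₘ[m] ℝ) → M → E1}

theorem tm_meas {F G : M → E1} (hF : AEStronglyMeasurable F m) (hG : AEStronglyMeasurable G m) :
    AEStronglyMeasurable (fun x => tm (F x) (G x)) m :=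
  tm.aestronglyMeasurable_comp₂ hF hG

theorem gr_bd (hC : IsGamma C) (hG : IsGrad C Gr) {a : M →ₘ[m] ℝ} (ha : a ∈ C.Test) :
    ∃ K : ℝ, 0 ≤ K ∧ ∀ᵐ x ∂m, ‖Gr a x‖ ≤ K := by
  obtain ⟨K, hK⟩ := mem_top_iff.1 (hC.test_Γ_top ha)
  refine ⟨Real.sqrt |K|, Real.sqrt_nonneg _, ?_⟩
  filter_upwards [hG.norm_eq (hC.tW ha), hK] with x a2 a3
  rw [a2]
  exact Real.sqrt_le_sqrt ((le_abs_self _).trans (a3.trans (le_abs_self _)))

theorem tm_mem2 (hC : IsGamma C) (hG : IsGrad C Gr) {a c : M →ₘ[m] ℝ} (ha : a ∈ C.Test)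
    (hc : c ∈ C.Test) : MemLp (fun x => tm (Gr a x) (Gr c x)) 2 m := by
  obtain ⟨K, -, hK⟩ := gr_bd hC hG ha
  refine (hG.mem c (hC.tW hc)).of_le_mul (c := K)
    (tm_meas (hG.mem a (hC.tW ha)).1 (hG.mem c (hC.tW hc)).1) ?_
  filter_upwards [hK] with x h
  rw [norm_tm]
  exact mul_le_mul_of_nonneg_right h (norm_nonneg _)

theorem exists_hess [SigmaFinite m] (hC : IsGamma C) {κ : ℝ} (hB : C.BEi κ) (hG : IsGrad C Gr)
    {b : M →ₘ[m] ℝ} (hb : b ∈ C.Test) :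
    ∃ σ : M → E2, MemLp σ 2 m ∧ ∀ a ∈ C.Test, ∀ c ∈ C.Test,
      ∀ᵐ x ∂m, ⟪σ x, tm (Gr a x) (Gr c x)⟫_ℝ = C.hess b a c x := by
  classical
  let P := {p : (M →ₘ[m] ℝ) × (M →ₘ[m] ℝ) × (M →ₘ[m] ℝ) //
    p.1 ∈ C.Test ∧ p.2.1 ∈ C.Test ∧ p.2.2 ∈ C.Test}
  have hP : ∀ p : P, MemLp (fun x => p.1.1 x • tm (Gr p.1.2.1 x) (Gr p.1.2.2 x)) 2 m := fun p => by
    have := (tm_mem2 hC hG p.2.2.1 p.2.2.2).smul (p := ∞) (r := 2) (hC.test_A p.2.1).2
    exact this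
  let v : P → Lp E2 2 m := fun p => (hP p).toLp
  let T : (P →₀ ℝ) →ₗ[ℝ] Lp E2 2 m := Finsupp.linearCombination ℝ v
  let L : (P →₀ ℝ) →ₗ[ℝ] ℝ :=
    Finsupp.linearCombination ℝ (fun p : P => I (p.1.1 * C.hess b p.1.2.1 p.1.2.2))
  have hT : ∀ r, ∀ᵐ x ∂m, T r x
      = ∑ p ∈ r.support, (r p * p.1.1 x) • tm (Gr p.1.2.1 x) (Gr p.1.2.2 x) := by
    intro r
    have h1 : T r = ∑ p ∈ r.support, r p • v p := by
      change Finsupp.linearCombination ℝ v r = _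
      rw [Finsupp.linearCombination_apply, Finsupp.sum]
    have h2 : ∀ᵐ x ∂m, ∀ p : r.support, (r p • v p.1 : Lp E2 2 m) x
        = (r p * p.1.1.1 x) • tm (Gr p.1.1.2.1 x) (Gr p.1.1.2.2 x) := by
      rw [ae_all_iff]
      intro p
      filter_upwards [Lp.coeFn_smul (r p) (v p), (hP p).coeFn_toLp] with x a1 a2
      rw [a1, Pi.smul_apply, a2, smul_smul]
    filter_upwards [lpsum_ae r.support (fun p => r p • v p), h2] with x a1 a2
    rw [h1, a1]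
    exact Finset.sum_congr rfl fun p hp => a2 ⟨p, hp⟩
  have hL : ∀ r, L r = ∑ p ∈ r.support, r p * I (p.1.1 * C.hess b p.1.2.1 p.1.2.2) := by
    intro r
    change Finsupp.linearCombination ℝ
      (fun p : P => I (p.1.1 * C.hess b p.1.2.1 p.1.2.2)) r = _
    rw [Finsupp.linearCombination_apply, Finsupp.sum]
    rfl
  have hpos : ∀ r, 0 ≤ (I (C.lap b ^ 2) - κ * I (C.Γ b b)) / 2 + 2 * L r
      + 2 * ‖T r‖ ^ 2 := by
    intro r
    have sum_eq : ∀ {β : Type _} [AddCommMonoid β] (f : P → β),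
        ∑ k : Fin r.support.card, f (r.support.equivFin.symm k) = ∑ i ∈ r.support, f i := by
      intro β _ f
      rw [← Finset.sum_coe_sort r.support f]
      exact Equiv.sum_comp r.support.equivFin.symm (fun i : r.support => f i)
    have h1 := hC.tensor_ineq_one hB hb (n := r.support.card)
      (F := fun k => (r.support.equivFin.symm k).1.1.2.1)
      (H := fun k => (r.support.equivFin.symm k).1.1.2.2)
      (s := fun k => r (r.support.equivFin.symm k) • (r.support.equivFin.symm k).1.1.1)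
      (fun k => (r.support.equivFin.symm k).1.2.2.1)
      (fun k => (r.support.equivFin.symm k).1.2.2.2)
      (fun k => mem_smul _ (hC.test_A (r.support.equivFin.symm k).1.2.1).2)
      (fun k => mem_smul _ (hC.memLp _ (hC.tW (r.support.equivFin.symm k).1.2.1)))
    have e1 : ∑ k : Fin r.support.card, I ((r (r.support.equivFin.symm k) •
        (r.support.equivFin.symm k).1.1.1) * C.KK b (r.support.equivFin.symm k).1.1.2.1
          (r.support.equivFin.symm k).1.1.2.2) = 2 * L r := by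
      rw [sum_eq (fun p => I ((r p • p.1.1) * C.KK b p.1.2.1 p.1.2.2)), hL, Finset.mul_sum]
      refine Finset.sum_congr rfl fun p _ => ?_
      unfold Calc.KK
      rw [smul_mul_assoc, mul_smul_comm, I_smul, I_smul]
      ring
    have e2 : ∑ i : Fin r.support.card, ∑ j : Fin r.support.card,
        I ((r (r.support.equivFin.symm i) • (r.support.equivFin.symm i).1.1.1) *
          (r (r.support.equivFin.symm j) • (r.support.equivFin.symm j).1.1.1) *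
          C.MM (r.support.equivFin.symm i).1.1.2.1 (r.support.equivFin.symm i).1.1.2.2
            (r.support.equivFin.symm j).1.1.2.1 (r.support.equivFin.symm j).1.1.2.2)
        = I (∑ p ∈ r.support, ∑ q ∈ r.support, (r p • p.1.1) * (r q • q.1.1)
          * C.MM p.1.2.1 p.1.2.2 q.1.2.1 q.1.2.2) ∧ MemLp (∑ p ∈ r.support, ∑ q ∈ r.support,
            (r p • p.1.1) * (r q • q.1.1) * C.MM p.1.2.1 p.1.2.2 q.1.2.1 q.1.2.2
              : M →ₘ[m] ℝ) 1 m := by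
      have hm : ∀ p q : P, MemLp ((r p • p.1.1) * (r q • q.1.1)
          * C.MM p.1.2.1 p.1.2.2 q.1.2.1 q.1.2.2 : M →ₘ[m] ℝ) 1 m := fun p q =>
        mem_mul_top (mem_mul_top (mem_smul _ (hC.test_A p.2.1).2) (mem_smul _ (hC.test_A q.2.1).2))
          (hC.MM_mem1 hB p.2.2.1 p.2.2.2 q.2.2.1 q.2.2.2)
      have hm2 : ∀ p : P, MemLp (∑ q ∈ r.support, (r p • p.1.1) * (r q • q.1.1)
          * C.MM p.1.2.1 p.1.2.2 q.1.2.1 q.1.2.2 : M →ₘ[m] ℝ) 1 m :=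
        fun p => (I_fsum _ fun q _ => hm p q).2
      refine ⟨?_, (I_fsum _ fun p _ => hm2 p).2⟩
      rw [(I_fsum _ fun p _ => hm2 p).1, ← sum_eq]
      refine Finset.sum_congr rfl fun i _ => ?_
      rw [(I_fsum _ fun q _ => hm _ q).1, ← sum_eq]
    have e3 : I (∑ p ∈ r.support, ∑ q ∈ r.support, (r p • p.1.1) * (r q • q.1.1)
          * C.MM p.1.2.1 p.1.2.2 q.1.2.1 q.1.2.2) ≤ 2 * ‖T r‖ ^ 2 := by
      have n1 : ‖T r‖ ^ 2 = ∫ x, ‖T r x‖ ^ 2 ∂m := by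
        rw [← real_inner_self_eq_norm_sq, L2.inner_def]
        refine integral_congr_ae ?_
        filter_upwards with x
        rw [real_inner_self_eq_norm_sq]
      rw [n1, ← integral_const_mul]
      refine integral_mono_ae (int_of_mem e2.2) ((Lp.memLp (T r)).integrable_norm_pow
        (two_ne_zero)|>.const_mul _) ?_
      have c1 : ∀ᵐ x ∂m, (∑ p ∈ r.support, ∑ q ∈ r.support, (r p • p.1.1) * (r q • q.1.1)
          * C.MM p.1.2.1 p.1.2.2 q.1.2.1 q.1.2.2 : M →ₘ[m] ℝ) x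
          = ∑ p ∈ r.support, ∑ q ∈ r.support, (r p * p.1.1 x) * (r q * q.1.1 x)
            * (C.Γ q.1.2.1 p.1.2.1 x * C.Γ q.1.2.2 p.1.2.2 x
              + C.Γ q.1.2.1 p.1.2.2 x * C.Γ q.1.2.2 p.1.2.1 x) := by
        have c2 : ∀ᵐ x ∂m, ∀ p : r.support, (∑ q ∈ r.support, (r p • p.1.1.1) * (r q • q.1.1)
            * C.MM p.1.1.2.1 p.1.1.2.2 q.1.2.1 q.1.2.2 : M →ₘ[m] ℝ) x
            = ∑ q ∈ r.support, ((r p • p.1.1.1) * (r q • q.1.1)
            * C.MM p.1.1.2.1 p.1.1.2.2 q.1.2.1 q.1.2.2 : M →ₘ[m] ℝ) x := by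
          rw [ae_all_iff]; intro p; exact fsum_ae _ _
        have c3 : ∀ᵐ x ∂m, ∀ p q : r.support, ((r p • p.1.1.1) * (r q • q.1.1.1)
            * C.MM p.1.1.2.1 p.1.1.2.2 q.1.1.2.1 q.1.1.2.2 : M →ₘ[m] ℝ) x
            = (r p * p.1.1.1 x) * (r q * q.1.1.1 x)
            * (C.Γ q.1.1.2.1 p.1.1.2.1 x * C.Γ q.1.1.2.2 p.1.1.2.2 x
              + C.Γ q.1.1.2.1 p.1.1.2.2 x * C.Γ q.1.1.2.2 p.1.1.2.1 x) := by
          rw [ae_all_iff]; intro p; rw [ae_all_iff]; intro q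
          unfold Calc.MM
          filter_upwards [mul_ae ((r p • p.1.1.1) * (r q • q.1.1.1))
            (C.Γ q.1.1.2.1 p.1.1.2.1 * C.Γ q.1.1.2.2 p.1.1.2.2
              + C.Γ q.1.1.2.1 p.1.1.2.2 * C.Γ q.1.1.2.2 p.1.1.2.1),
            mul_ae (r p • p.1.1.1) (r q • q.1.1.1), smul_ae p.1.1.1 (r p), smul_ae q.1.1.1 (r q),
            add_ae (C.Γ q.1.1.2.1 p.1.1.2.1 * C.Γ q.1.1.2.2 p.1.1.2.2)
              (C.Γ q.1.1.2.1 p.1.1.2.2 * C.Γ q.1.1.2.2 p.1.1.2.1),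
            mul_ae (C.Γ q.1.1.2.1 p.1.1.2.1) (C.Γ q.1.1.2.2 p.1.1.2.2),
            mul_ae (C.Γ q.1.1.2.1 p.1.1.2.2) (C.Γ q.1.1.2.2 p.1.1.2.1)]
            with x b1 b2 b3 b4 b5 b6 b7
          rw [b1, b2, b3, b4, b5, b6, b7]
        filter_upwards [fsum_ae r.support (fun p => ∑ q ∈ r.support, (r p • p.1.1) * (r q • q.1.1)
          * C.MM p.1.2.1 p.1.2.2 q.1.2.1 q.1.2.2), c2, c3] with x b1 b2 b3
        rw [b1]
        refine Finset.sum_congr rfl fun p hp => ?_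
        rw [b2 ⟨p, hp⟩]
        exact Finset.sum_congr rfl fun q hq => b3 ⟨p, hp⟩ ⟨q, hq⟩
      have g1 : ∀ᵐ x ∂m, ∀ p q : r.support,
          ⟪Gr q.1.1.2.1 x, Gr p.1.1.2.1 x⟫_ℝ = C.Γ q.1.1.2.1 p.1.1.2.1 x ∧
          ⟪Gr q.1.1.2.2 x, Gr p.1.1.2.2 x⟫_ℝ = C.Γ q.1.1.2.2 p.1.1.2.2 x ∧
          ⟪Gr q.1.1.2.1 x, Gr p.1.1.2.2 x⟫_ℝ = C.Γ q.1.1.2.1 p.1.1.2.2 x ∧
          ⟪Gr q.1.1.2.2 x, Gr p.1.1.2.1 x⟫_ℝ = C.Γ q.1.1.2.2 p.1.1.2.1 x := by
        rw [ae_all_iff]; intro p; rw [ae_all_iff]; intro q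
        filter_upwards [hG.inner _ (hC.tW q.1.2.2.1) _ (hC.tW p.1.2.2.1),
          hG.inner _ (hC.tW q.1.2.2.2) _ (hC.tW p.1.2.2.2),
          hG.inner _ (hC.tW q.1.2.2.1) _ (hC.tW p.1.2.2.2),
          hG.inner _ (hC.tW q.1.2.2.2) _ (hC.tW p.1.2.2.1)] with x d1 d2 d3 d4
        exact ⟨d1, d2, d3, d4⟩
      filter_upwards [c1, hT r, g1] with x b1 b2 b4
      rw [b1, b2]
      refine le_of_eq_of_le ?_ (swap_le r.support (fun p => r p * p.1.1 x)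
        (fun p => Gr p.1.2.1 x) (fun p => Gr p.1.2.2 x))
      refine Finset.sum_congr rfl fun p hp => Finset.sum_congr rfl fun q hq => ?_
      obtain ⟨d1, d2, d3, d4⟩ := b4 ⟨p, hp⟩ ⟨q, hq⟩
      rw [← d1, ← d2, ← d3, ← d4]
    rw [e1, e2.1] at h1
    linarith only [e3, h1]
  obtain ⟨σ, -, hσL⟩ := riesz_gen T L _ _ (by positivity) hpos
  refine ⟨σ, Lp.memLp σ, fun a ha c hc => ?_⟩
  have hm : AEStronglyMeasurable (fun x => ⟪σ x, tm (Gr a x) (Gr c x)⟫_ℝ) m :=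
    (Lp.memLp σ).1.inner (tm_mem2 hC hG ha hc).1
  obtain ⟨K, hK0, hK⟩ := gr_bd hC hG ha
  obtain ⟨K', hK0', hK'⟩ := gr_bd hC hG hc
  set G : M →ₘ[m] ℝ := AEEqFun.mk _ hm with hGdef
  have hGx : ∀ᵐ x ∂m, G x = ⟪σ x, tm (Gr a x) (Gr c x)⟫_ℝ := AEEqFun.coeFn_mk _ _
  have hG2 : MemLp G 2 m := by
    refine (Lp.memLp σ).of_le_mul (c := K * K') G.aestronglyMeasurable ?_
    filter_upwards [hGx, hK, hK'] with x a1 a2 a3
    rw [a1, mul_comm]
    refine (norm_inner_le_norm _ _).trans ?_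
    refine mul_le_mul_of_nonneg_left ?_ (norm_nonneg _)
    rw [norm_tm]
    exact mul_le_mul a2 a3 (norm_nonneg _) hK0
  have hH2 := hC.hess_mem2 hB hb ha hc
  have h0 : G - C.hess b a c = 0 := by
    refine hC.eq_zero_of_test2 hB (mem_sub hG2 hH2) fun s hs => ?_
    have hs2 := hC.memLp _ (hC.tW hs)
    rw [mul_sub, I_sub (mem_mul_22 hs2 hG2) (mem_mul_22 hs2 hH2), sub_eq_zero]
    have h3 := hσL (Finsupp.single ⟨(s, a, c), hs, ha, hc⟩ 1)
    have h4 : L (Finsupp.single ⟨(s, a, c), hs, ha, hc⟩ 1) = I (s * C.hess b a c) := by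
      change Finsupp.linearCombination ℝ (fun p : P => I (p.1.1 * C.hess b p.1.2.1 p.1.2.2))
        (Finsupp.single _ 1) = _
      rw [Finsupp.linearCombination_single, one_smul]
    have h5 : T (Finsupp.single ⟨(s, a, c), hs, ha, hc⟩ 1) = v ⟨(s, a, c), hs, ha, hc⟩ := by
      change Finsupp.linearCombination ℝ v (Finsupp.single _ 1) = _
      rw [Finsupp.linearCombination_single, one_smul]
    rw [h4, h5, L2.inner_def] at h3
    rw [h3]
    unfold I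
    refine integral_congr_ae ?_
    filter_upwards [mul_ae s G, hGx, (hP ⟨(s, a, c), hs, ha, hc⟩).coeFn_toLp] with x a1 a2 a3
    rw [a1, a2]
    have a4 : (v ⟨(s, a, c), hs, ha, hc⟩ : Lp E2 2 m) x = s x • tm (Gr a x) (Gr c x) := a3
    rw [a4, real_inner_smul_right]
  rw [sub_eq_zero] at h0
  filter_upwards [hGx, eq_iff_ae.1 h0] with x a1 a2
  rw [← a1, a2]

theorem hs : HS.{u} := by
  intro M _ _ _ _ U m κ Gr hc b hb
  haveI := hc.sf
  exact exists_hess hc.hC hc.hB hc.hG hb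

end Vale.Agent.P233G35
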